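import Vale.Agent.P054.T2.H715.Prod2
import Vale.Agent.P054.T2.H192.Tree

/-!
# [PROD], part 4: `Sp = L ⊗ Vs`, and the conclusions in the letters of H192/Tree
-/

set_option autoImplicit false
set_option linter.unusedSimpArgs false
set_option linter.unusedSectionVars false

open MvPowerSeries Finset

namespace Vale.Agent.P054.T2.H715

section span

variable {k : Type*} [Field k] [CharZero k] {e : ℕ}
variable {L : Type*} [Field L] [Algebra (MvPowerSeries (Fin e) k) L]
  [IsFractionRing (MvPowerSeries (Fin e) k) L] [Algebra k L]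
  [IsScalarTower k (MvPowerSeries (Fin e) k) L]

/-- words with independent values at the closed point are independent over `L` -/
theorem linInd_words {X : Type*} (s : X → MvPowerSeries (Fin e) k) {m : ℕ}
    (w : Fin m → List (Fin e)) (hind : LinearIndependent k (fun j => cs (cnt (w j)) s)) :
    LinearIndependent L (fun j => toL L (fun x => wd (w j) (s x))) := by
  classical
  rw [← LinearIndependent.iff_fractionRing (R := MvPowerSeries (Fin e) k)]
  rw [Fintype.linearIndependent_iff]
  intro A hA
  have hx : ∀ x, ∑ j, A j * wd (w j) (s x) = 0 := by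
    intro x
    have h1 := congrFun hA x
    rw [Finset.sum_apply] at h1
    apply IsFractionRing.injective (MvPowerSeries (Fin e) k) L
    rw [map_sum, map_zero]
    rw [← show (0 : X → L) x = 0 from rfl, ← h1]
    refine Finset.sum_congr rfl fun j _ => ?_
    rw [map_mul, Pi.smul_apply, Algebra.smul_def]
    rfl
  choose c hc hcw using fun j => coeff_wd (k := k) (w j) 0
  have key : ∀ n : ℕ, ∀ d : Fin e →₀ ℕ, d.degree = n → ∀ j, coeff d (A j) = 0 := by
    intro n
    induction n using Nat.strong_induction_on with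
    | _ n ih =>
      intro d hd
      have h1 : ∀ x, ∑ j, coeff d (A j) * ((c j : k) * cs (cnt (w j)) s x) = 0 := by
        intro x
        have h2 := congrArg (coeff d) (hx x)
        rw [map_sum, map_zero] at h2
        rw [← h2]
        refine Finset.sum_congr rfl fun j _ => ?_
        rw [coeff_mul, Finset.sum_eq_single (d, 0)]
        · rw [hcw j, zero_add]; rfl
        · rintro ⟨p, q⟩ hpq hne
          rw [Finset.HasAntidiagonal.mem_antidiagonal] at hpq
          have h3 : q ≠ 0 := by
            intro h4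
            apply hne
            have h5 : p = d := by
              have h6 : p + q = d := hpq
              rw [h4, add_zero] at h6
              exact h6
            rw [h5, h4]
          have h5 : p.degree < n := by
            have h6 : p.degree + q.degree = n := by
              have h9 : p + q = d := hpq
              rw [← hd, ← h9, map_add]
            have h7 : q.degree ≠ 0 := fun h8 => h3 ((Finsupp.degree_eq_zero_iff q).1 h8)
            omega
          rw [ih _ h5 p rfl j, zero_mul]
        · intro h3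
          exact absurd (by rw [Finset.HasAntidiagonal.mem_antidiagonal, add_zero]) h3
      have h2 : ∑ j, (coeff d (A j) * (c j : k)) • (cs (cnt (w j)) s) = 0 := by
        funext x
        rw [Finset.sum_apply, Pi.zero_apply, ← h1 x]
        refine Finset.sum_congr rfl fun j _ => ?_
        rw [Pi.smul_apply, smul_eq_mul, mul_assoc]
      intro j
      have h3 := Fintype.linearIndependent_iff.1 hind _ h2 j
      exact (mul_eq_zero.1 h3).resolve_right (Nat.cast_ne_zero.2 (hc j))
  intro j
  ext d
  rw [key _ d rfl j, coeff_zero]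

/-- **the space generated by the derivatives of `s` is `L ⊗ Vs s`** -/
theorem Sp_eq_LV {X : Type*} [Finite X] {E : Fin e → Derivation k L L}
    (hE : ∀ m (f : MvPowerSeries (Fin e) k), E m (algebraMap _ L f)
      = algebraMap _ L (MvPowerSeries.pderiv k m f)) (s : X → MvPowerSeries (Fin e) k) :
    Sp (Submodule.span L (Set.range E) : Set (Derivation k L L)) (toL L s) = LV L (Vs s) := by
  classical
  cases nonempty_fintype X
  obtain ⟨f, hf1, hf2, hf3⟩ := Submodule.exists_fun_fin_finrank_span_eq k
    {v : X → k | ∃ d, d ≠ 0 ∧ v = cs d s}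
  choose d hd0 hd using hf1
  choose m w hw using fun j => exists_word (d j) (hd0 j)
  have hind : LinearIndependent k (fun j => cs (cnt (m j :: w j)) s) := by
    have h1 : (fun j => cs (cnt (m j :: w j)) s) = f := by
      funext j; rw [hw j, hd j]
    rw [h1]; exact hf3
  have hLI := linInd_words (L := L) s (fun j => m j :: w j) hind
  have hle := Sp_le_LV hE s
  -- `LV` has dimension at most `m`
  have h2 : LV L (Vs s) ≤ Submodule.span L (Set.range (fun j => fun x => algebraMap k L (f j x))) := by
    refine Submodule.span_le.2 ?_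
    rintro v ⟨a, ha, rfl⟩
    have ha' : a ∈ Submodule.span k (Set.range f) := by rw [hf2]; exact ha
    rw [SetLike.mem_coe]
    induction ha' using Submodule.span_induction with
    | mem y hy =>
      obtain ⟨j, rfl⟩ := hy
      exact Submodule.subset_span ⟨j, rfl⟩
    | zero =>
      have h3 : (fun x => algebraMap k L ((0 : X → k) x)) = 0 := by funext x; simp
      rw [h3]; exact Submodule.zero_mem _
    | add x y hx hy hx' hy' =>
      have h3 : (fun z => algebraMap k L ((x + y) z)) = (fun z => algebraMap k L (x z))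
          + (fun z => algebraMap k L (y z)) := by funext z; simp
      rw [h3]
      exact Submodule.add_mem _ (hx' (by rw [Vs, ← hf2]; exact hx)) (hy' (by rw [Vs, ← hf2]; exact hy))
    | smul c x hx hx' =>
      have h3 : (fun z => algebraMap k L ((c • x) z)) = algebraMap k L c •
          (fun z => algebraMap k L (x z)) := by funext z; simp
      rw [h3]
      exact Submodule.smul_mem _ _ (hx' (by rw [Vs, ← hf2]; exact hx))
  have h3 := (Submodule.finrank_mono h2).trans (finrank_range_le_card (R := L)
    (fun j => (fun x => algebraMap k L (f j x) : X → L)))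
  rw [Fintype.card_fin] at h3
  refine Submodule.eq_of_le_of_finrank_le hle (h3.trans ?_)
  have hLI' : LinearIndependent L (fun j => (⟨toL L (fun x => wd (m j :: w j) (s x)),
      word_mem hE s (w j) (m j)⟩ : Sp (Submodule.span L (Set.range E) :
        Set (Derivation k L L)) (toL L s))) := by
    refine LinearIndependent.of_comp (Submodule.subtype _) ?_
    exact hLI
  have h4 := hLI'.fintype_card_le_finrank
  rwa [Fintype.card_fin] at h4

/-- the split hypothesis is symmetric in `s` and `r` -/
theorem split_symm {X : Type*} (s r : X → MvPowerSeries (Fin e) k)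
    (hsplit : ∀ l : Fin e, ∃ α : Fin e → L,
      (∀ x, ∑ m, α m * algebraMap _ L (MvPowerSeries.pderiv k m (r x)) = 0) ∧
      (∀ x, ∑ m, α m * algebraMap _ L (MvPowerSeries.pderiv k m (s x))
        = algebraMap _ L (MvPowerSeries.pderiv k l (s x)))) :
    ∀ l : Fin e, ∃ α : Fin e → L,
      (∀ x, ∑ m, α m * algebraMap _ L (MvPowerSeries.pderiv k m (s x)) = 0) ∧
      (∀ x, ∑ m, α m * algebraMap _ L (MvPowerSeries.pderiv k m (r x))
        = algebraMap _ L (MvPowerSeries.pderiv k l (r x))) := by
  classical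
  intro l
  obtain ⟨α, h1, h2⟩ := hsplit l
  have key : ∀ (t : X → MvPowerSeries (Fin e) k) x,
      ∑ m, ((if m = l then 1 else 0) - α m) * algebraMap _ L (MvPowerSeries.pderiv k m (t x))
      = algebraMap _ L (MvPowerSeries.pderiv k l (t x))
        - ∑ m, α m * algebraMap _ L (MvPowerSeries.pderiv k m (t x)) := by
    intro t x
    simp only [sub_mul, Finset.sum_sub_distrib, ite_mul, one_mul, zero_mul]
    rw [Finset.sum_ite_eq' Finset.univ l, if_pos (Finset.mem_univ l)]
  refine ⟨fun m => (if m = l then 1 else 0) - α m, fun x => ?_, fun x => ?_⟩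
  · rw [key, h2 x, sub_self]
  · rw [key, h1 x, sub_zero]

/-- **the two potentials vanish**: `Q(s - s(0)) + B(w, s - s(0)) = 0` on the germ -/
theorem prod_pot {ν : Type*} [Fintype ν] (s r : ν ⊕ ν → MvPowerSeries (Fin e) k)
    (hsplit : ∀ l : Fin e, ∃ α : Fin e → L,
      (∀ x, ∑ m, α m * algebraMap _ L (MvPowerSeries.pderiv k m (r x)) = 0) ∧
      (∀ x, ∑ m, α m * algebraMap _ L (MvPowerSeries.pderiv k m (s x))
        = algebraMap _ L (MvPowerSeries.pderiv k l (s x))))
    (hQ : Qs (s - r) = 0) :
    Qs (s - fun x => C (cs 0 s x)) + Bq (fun x => C (cs 0 s x - cs 0 r x))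
      (s - fun x => C (cs 0 s x)) = 0 := by
  classical
  obtain ⟨E, hE, hcomm⟩ := exists_E k e L
  have hdec := dec_of_split hE s r hsplit
  have hperp := prod_perp s r hsplit hQ
  -- constants
  set s0 : ν ⊕ ν → MvPowerSeries (Fin e) k := fun x => C (cs 0 s x) with hs0
  set r0 : ν ⊕ ν → MvPowerSeries (Fin e) k := fun x => C (cs 0 r x) with hr0
  have hw : (fun x => C (cs 0 s x - cs 0 r x) : ν ⊕ ν → MvPowerSeries (Fin e) k) = s0 - r0 := by
    funext x; simp [hs0, hr0]
  rw [hw]
  -- coefficient vectors of the nonconstant parts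
  have hcs : ∀ (t : ν ⊕ ν → MvPowerSeries (Fin e) k) (d : Fin e →₀ ℕ),
      cs d (t - fun x => C (cs 0 t x)) ∈ Vs t := by
    intro t d
    by_cases hd : d = 0
    · have h1 : cs d (t - fun x => C (cs 0 t x)) = 0 := by
        funext x
        rw [hd]
        simp [cs]
      rw [h1]; exact Submodule.zero_mem _
    · have h1 : cs d (t - fun x => C (cs 0 t x)) = cs d t := by
        funext x
        simp only [cs, Pi.sub_apply, map_sub]
        rw [coeff_C, if_neg hd, sub_zero]
      rw [h1]; exact Submodule.subset_span ⟨d, hd, rfl⟩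
  have hSR : Bq (s - s0) (r - r0) = 0 := by
    apply IsFractionRing.injective (MvPowerSeries (Fin e) k) L
    rw [map_zero, map_Bq]
    exact Bq_LV hperp _ (toL_mem_LV _ _ (hcs s)) _ (toL_mem_LV _ _ (hcs r))
  -- the constant term
  have hQ0 : Qs (s0 - r0) = 0 := by
    have h1 := congrArg (constantCoeff (σ := Fin e) (R := k)) hQ
    rw [map_Qs, map_zero] at h1
    have h2 : Qs (s0 - r0) = C (Qs (fun x => constantCoeff ((s - r) x))) := by
      rw [map_Qs]
      congr 1
      funext x
      simp [hs0, hr0, cs]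
    rw [h2, h1, map_zero]
  have hsplitQ : Qs (s - s0) + Bq (s0 - r0) (s - s0)
      = Bq (s0 - r0) (r - r0) - Qs (r - r0) := by
    have h1 : s - r = (s0 - r0) + ((s - s0) - (r - r0)) := by abel
    rw [h1, Qs_add, hQ0, zero_add, Qs_sub, hSR, sub_zero] at hQ
    have h2 : Bq (s0 - r0) ((s - s0) - (r - r0)) = Bq (s0 - r0) (s - s0) - Bq (s0 - r0) (r - r0) := by
      rw [Bq_comm, Bq_sub_left, Bq_comm, Bq_comm (r - r0)]
    rw [h2] at hQ
    linear_combination hQ
  -- derivations
  have hder : ∀ D ∈ Submodule.span L (Set.range E), ∀ (t : ν ⊕ ν → MvPowerSeries (Fin e) k),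
      dv D (toL L t) = 0 → ∀ c : ν ⊕ ν → k,
      D (algebraMap _ L (Qs (t - fun x => C (c x)))) = 0 ∧
      ∀ c' : ν ⊕ ν → k, D (algebraMap _ L (Bq (fun x => C (c' x)) (t - fun x => C (c x)))) = 0 := by
    intro D _ t ht c
    have hC : ∀ a : k, D (algebraMap (MvPowerSeries (Fin e) k) L (C a)) = 0 := by
      intro a
      have h1 : algebraMap (MvPowerSeries (Fin e) k) L (C a) = algebraMap k L a := by
        rw [IsScalarTower.algebraMap_apply k (MvPowerSeries (Fin e) k) L]; rfl
      rw [h1, Derivation.map_algebraMap]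
    have hx : ∀ x, D (algebraMap (MvPowerSeries (Fin e) k) L (t x)) = 0 := fun x => congrFun ht x
    constructor
    · unfold Qs
      rw [map_sum, map_sum]
      refine Finset.sum_eq_zero fun i _ => ?_
      simp only [Pi.sub_apply, map_mul, map_sub, Derivation.leibniz, hC, hx, sub_zero, smul_zero,
        add_zero]
    · intro c'
      unfold Bq
      rw [map_sum, map_sum]
      refine Finset.sum_eq_zero fun i _ => ?_
      simp only [Pi.sub_apply, map_mul, map_add, map_sub, Derivation.leibniz, hC, hx, sub_zero,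
        smul_zero, add_zero]
  have hzero : ∀ m, MvPowerSeries.pderiv k m (Qs (s - s0) + Bq (s0 - r0) (s - s0)) = 0 := by
    intro m
    apply IsFractionRing.injective (MvPowerSeries (Fin e) k) L
    rw [map_zero, ← hE]
    obtain ⟨D1, a1, D2, a2, h3, a3, a4⟩ := hdec (E m) (Submodule.subset_span ⟨m, rfl⟩)
    rw [h3, Derivation.add_apply]
    have h4 : D2 (algebraMap _ L (Qs (s - s0) + Bq (s0 - r0) (s - s0))) = 0 := by
      obtain ⟨b1, b2⟩ := hder D2 a2 s a4 (cs 0 s)
      rw [map_add, map_add, b1, ← hw, b2, add_zero]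
    have h5 : D1 (algebraMap _ L (Qs (s - s0) + Bq (s0 - r0) (s - s0))) = 0 := by
      obtain ⟨b1, b2⟩ := hder D1 a1 r a3 (cs 0 r)
      rw [hsplitQ, map_sub, map_sub, b1, ← hw, b2, sub_zero]
    rw [h4, h5, add_zero]
  apply MvPowerSeries.pderiv.ext
  · intro m
    rw [hzero m, map_zero]
  · rw [map_zero, map_add, map_Qs, map_Bq]
    have h1 : (fun x => constantCoeff ((s - s0) x) : ν ⊕ ν → k) = 0 := by
      funext x; simp [hs0, cs]
    rw [h1]
    simp [Qs]

/-- coordinates `ν ⊕ ν → k` to pairs -/
def pw {n : ℕ} : (Fin (n + 1) ⊕ Fin (n + 1) → k) →ₗ[k] H192.W k n where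
  toFun v := (fun i => v (Sum.inl i), fun i => v (Sum.inr i))
  map_add' _ _ := rfl
  map_smul' _ _ := rfl

theorem Bf_pw {n : ℕ} (v w : Fin (n + 1) ⊕ Fin (n + 1) → k) : H686.Bf (pw v) (pw w) = Bq v w := rfl

theorem Qf_pw {n : ℕ} (v : Fin (n + 1) ⊕ Fin (n + 1) → k) : H686.Qf (pw v) = Qs v := rfl

/-- the direction space of the germ of `s`, in the letters of H192 -/
noncomputable def VW {n : ℕ} (s : Fin (n + 1) ⊕ Fin (n + 1) → MvPowerSeries (Fin e) k) :
    Submodule k (H192.W k n) := (Vs s).map pw

/-- **[PROD-FULL]** the hypotheses `hperp`, `hiso₁`, `hiso₂` of `H192.tree` -/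
theorem prod_full {n : ℕ} (s r : Fin (n + 1) ⊕ Fin (n + 1) → MvPowerSeries (Fin e) k)
    (hsplit : ∀ l : Fin e, ∃ α : Fin e → L,
      (∀ x, ∑ m, α m * algebraMap _ L (MvPowerSeries.pderiv k m (r x)) = 0) ∧
      (∀ x, ∑ m, α m * algebraMap _ L (MvPowerSeries.pderiv k m (s x))
        = algebraMap _ L (MvPowerSeries.pderiv k l (s x))))
    (hQ : ∑ i, (s (Sum.inl i) - r (Sum.inl i)) * (s (Sum.inr i) - r (Sum.inr i)) = 0) :
    (∀ a ∈ VW s, ∀ b ∈ VW r, H686.Bf a b = 0) ∧
    (H192.Iso (VW s) → ∀ a ∈ VW s, H686.Bf (pw (cs 0 s) - pw (cs 0 r)) a = 0) ∧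
    (H192.Iso (VW r) → ∀ b ∈ VW r, H686.Bf (pw (cs 0 s) - pw (cs 0 r)) b = 0) := by
  have hQ' : Qs (s - r) = 0 := hQ
  have hQ'' : Qs (r - s) = 0 := by
    have h1 : Qs (r - s) = Qs (s - r) := by
      unfold Qs
      refine Finset.sum_congr rfl fun i _ => ?_
      simp only [Pi.sub_apply]; ring
    rw [h1, hQ']
  have h2 : (2 : k) ≠ 0 := two_ne_zero
  refine ⟨?_, ?_, ?_⟩
  · rintro _ ⟨a, ha, rfl⟩ _ ⟨b, hb, rfl⟩
    rw [Bf_pw]
    exact prod_perp s r hsplit hQ' a ha b hb
  · rintro hI _ ⟨a, ha, rfl⟩
    rw [← map_sub, Bf_pw]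
    refine prod_iso s r hsplit hQ' (fun x hx y hy => ?_) a ha
    rw [← Bf_pw]
    exact hI.Bf_eq_zero (Submodule.mem_map_of_mem hx) (Submodule.mem_map_of_mem hy)
  · rintro hI _ ⟨b, hb, rfl⟩
    have h3 := prod_iso r s (split_symm s r hsplit) hQ'' (fun x hx y hy => by
      rw [← Bf_pw]
      exact hI.Bf_eq_zero (Submodule.mem_map_of_mem hx) (Submodule.mem_map_of_mem hy)) b hb
    have h4 : pw (cs 0 s) - pw (cs 0 r) = -(pw (cs 0 r - cs 0 s) : H192.W k n) := by
      rw [map_sub]; abel
    rw [h4]
    have h5 : H686.Bf (-(pw (cs 0 r - cs 0 s) : H192.W k n)) (pw b)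
        = - H686.Bf (pw (cs 0 r - cs 0 s)) (pw b) := by
      have := H192.Bf_smul_left (-1 : k) (pw (cs 0 r - cs 0 s) : H192.W k n) (pw b)
      simpa using this
    rw [h5, Bf_pw, h3, neg_zero]

end span

end Vale.Agent.P054.T2.H715
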