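import Vale.Agent.P054.T2.H715.Prod

/-!
# [PROD], part 2: derivations of the fraction field, words, the spans of the coefficient vectors
-/

set_option autoImplicit false
set_option linter.unusedSimpArgs false
set_option linter.unusedSectionVars false

open MvPowerSeries Finset

namespace Vale.Agent.P054.T2.H715

section ext

variable {k R L : Type*} [Field k] [CommRing R] [IsDomain R] [Algebra k R] [Field L] [Algebra R L]
  [IsFractionRing R L] [Algebra k L] [IsScalarTower k R L]

/-- a derivation of a domain extends to the fraction field -/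
theorem exists_ext_der (D : Derivation k R R) :
    ∃ D' : Derivation k L L, ∀ r, D' (algebraMap R L r) = algebraMap R L (D r) := by
  have : Algebra.FormallyEtale R L := Algebra.FormallyEtale.of_isLocalization (nonZeroDivisors R)
  let e := KaehlerDifferential.tensorKaehlerEquivOfFormallyEtale k R L
  let g : Ω[R⁄k] →ₗ[R] L := (Algebra.linearMap R L).comp D.liftKaehlerDifferential
  let f : Ω[L⁄k] →ₗ[L] L := (LinearMap.liftBaseChange L g).comp e.symm.toLinearMap
  refine ⟨f.compDer (KaehlerDifferential.D k L), fun r => ?_⟩
  have h2 : e.symm (KaehlerDifferential.D k L (algebraMap R L r))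
      = 1 ⊗ₜ KaehlerDifferential.D k R r :=
    KaehlerDifferential.tensorKaehlerEquivOfFormallyEtale_symm_D_algebraMap k R L r
  refine (congrArg (LinearMap.liftBaseChange L g) h2).trans ?_
  rw [LinearMap.liftBaseChange_tmul, one_smul]
  change algebraMap R L (D.liftKaehlerDifferential (KaehlerDifferential.D k R r)) = _
  rw [Derivation.liftKaehlerDifferential_comp_D]

omit [Algebra k R] [IsScalarTower k R L] in
/-- a derivation of the fraction field which vanishes on the domain vanishes -/
theorem der_eq_zero (D : Derivation k L L) (h : ∀ r : R, D (algebraMap R L r) = 0) : D = 0 := by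
  ext x
  obtain ⟨a, b, hb, rfl⟩ := IsFractionRing.div_surjective (A := R) x
  have hb0 : algebraMap R L b ≠ 0 := by
    intro h0
    exact (nonZeroDivisors.ne_zero hb) ((IsFractionRing.injective R L) (by rw [h0, map_zero]))
  have h1 : D (algebraMap R L b * (algebraMap R L a / algebraMap R L b)) = 0 := by
    rw [mul_div_cancel₀ _ hb0]
    exact h a
  rw [Derivation.leibniz, h b, smul_zero, add_zero, smul_eq_mul] at h1
  simpa using (mul_eq_zero.1 h1).resolve_left hb0

/-- the span of commuting derivations is closed under brackets -/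
theorem lie_mem_span {τ : Type*} (E : τ → Derivation k L L) (hE : ∀ i j, ⁅E i, E j⁆ = 0) :
    ∀ D ∈ Submodule.span L (Set.range E), ∀ D' ∈ Submodule.span L (Set.range E),
      ⁅D, D'⁆ ∈ Submodule.span L (Set.range E) := by
  have hsm1 : ∀ (a : L) (D D' : Derivation k L L), ⁅D, a • D'⁆ = D a • D' + a • ⁅D, D'⁆ := by
    intro a D D'
    ext x
    simp [Derivation.commutator_apply, Derivation.leibniz]
    ring
  have hsm2 : ∀ (a : L) (D D' : Derivation k L L), ⁅a • D, D'⁆ = -(D' a • D) + a • ⁅D, D'⁆ := by
    intro a D D'
    ext x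
    simp [Derivation.commutator_apply, Derivation.leibniz]
    ring
  intro D hD D' hD'
  induction hD' using Submodule.span_induction with
  | mem y hy =>
    obtain ⟨j, rfl⟩ := hy
    induction hD using Submodule.span_induction with
    | mem x hx =>
      obtain ⟨i, rfl⟩ := hx
      rw [hE]
      exact Submodule.zero_mem _
    | zero => rw [zero_lie]; exact Submodule.zero_mem _
    | add x y _ _ hx hy => rw [add_lie]; exact Submodule.add_mem _ hx hy
    | smul a x hx hx' =>
      rw [hsm2]
      exact Submodule.add_mem _ (Submodule.neg_mem _ (Submodule.smul_mem _ _ hx))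
        (Submodule.smul_mem _ _ hx')
  | zero => rw [lie_zero]; exact Submodule.zero_mem _
  | add x y _ _ hx hy => rw [lie_add]; exact Submodule.add_mem _ hx hy
  | smul a x hx hx' =>
    rw [hsm1]
    exact Submodule.add_mem _ (Submodule.smul_mem _ _ hx) (Submodule.smul_mem _ _ hx')

end ext

section words

variable {k : Type*} [Field k] {e : ℕ}

/-- words in the partial derivatives -/
noncomputable def wd (w : List (Fin e)) (f : MvPowerSeries (Fin e) k) : MvPowerSeries (Fin e) k :=
  w.foldr (fun m y => MvPowerSeries.pderiv k m y) f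

@[simp] theorem wd_nil (f : MvPowerSeries (Fin e) k) : wd [] f = f := rfl

@[simp] theorem wd_cons (m : Fin e) (w : List (Fin e)) (f : MvPowerSeries (Fin e) k) :
    wd (m :: w) f = MvPowerSeries.pderiv k m (wd w f) := rfl

/-- the exponent of a word -/
noncomputable def cnt (w : List (Fin e)) : Fin e →₀ ℕ := w.foldr (fun m d => Finsupp.single m 1 + d) 0

@[simp] theorem cnt_nil : cnt ([] : List (Fin e)) = 0 := rfl

@[simp] theorem cnt_cons (m : Fin e) (w : List (Fin e)) :
    cnt (m :: w) = Finsupp.single m 1 + cnt w := rfl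

theorem coeff_wd (w : List (Fin e)) : ∀ n : Fin e →₀ ℕ, ∃ c : ℕ, c ≠ 0 ∧
    ∀ f : MvPowerSeries (Fin e) k, coeff n (wd w f) = (c : k) * coeff (n + cnt w) f := by
  induction w with
  | nil => intro n; exact ⟨1, one_ne_zero, fun f => by simp⟩
  | cons m w ih =>
    intro n
    obtain ⟨c, hc, h⟩ := ih (n + Finsupp.single m 1)
    refine ⟨c * (n m + 1), mul_ne_zero hc (Nat.succ_ne_zero _), fun f => ?_⟩
    rw [wd_cons, coeff_pderiv, h f, cnt_cons, add_assoc]
    push_cast
    ring

theorem exists_word (d : Fin e →₀ ℕ) (hd : d ≠ 0) :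
    ∃ (m : Fin e) (w : List (Fin e)), cnt (m :: w) = d := by
  have h1 : ∀ (s : Multiset (Fin e)), ∃ w : List (Fin e), (w : Multiset (Fin e)) = s :=
    fun s => ⟨s.toList, Multiset.coe_toList s⟩
  have h2 : ∀ w : List (Fin e), cnt w = Multiset.toFinsupp (w : Multiset (Fin e)) := by
    intro w
    induction w with
    | nil => simp
    | cons m w ih =>
      rw [cnt_cons, ih, ← Multiset.cons_coe, ← Multiset.singleton_add, map_add,
        Multiset.toFinsupp_singleton]
  obtain ⟨w, hw⟩ := h1 (Finsupp.toMultiset d)
  have h3 : cnt w = d := by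
    rw [h2, hw]
    exact Finsupp.toMultiset_toFinsupp d
  rcases w with _ | ⟨m, w⟩
  · exact absurd (by rw [← h3]; rfl) hd
  · exact ⟨m, w, h3⟩

end words

end Vale.Agent.P054.T2.H715
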