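import Mathlib

/-!
# Product structure in derivation form (P054, T2, leaf [PROD], #14421 (3))

`L` a field, `Ds` an `L`-space of derivations of `L` over `k`, closed under brackets, `B` a bilinear form
on `L^ι` which is horizontal for `Ds`. If every `D` in `Ds` is `D1 + D2` with `D1 r = 0`, `D2 s = 0`
and `B (s - r) (s - r) = 0` then the `Ds`-stable spaces generated by the derivatives of `s` and of `r`
are `B`-orthogonal.
-/

set_option autoImplicit false

namespace Vale.Agent.P054.T2.H715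

variable {k L : Type*} [CommRing k] [Field L] [Algebra k L] {ι : Type*}

/-- a derivation acting on the coordinates of a vector -/
def dv (D : Derivation k L L) (v : ι → L) : ι → L := fun i => D (v i)

@[simp] theorem dv_apply (D : Derivation k L L) (v : ι → L) (i : ι) : dv D v i = D (v i) := rfl

theorem dv_add (D : Derivation k L L) (v w : ι → L) : dv D (v + w) = dv D v + dv D w := by
  funext i; simp [dv]

theorem dv_sub (D : Derivation k L L) (v w : ι → L) : dv D (v - w) = dv D v - dv D w := by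
  funext i; simp [dv]

@[simp] theorem dv_zero (D : Derivation k L L) : dv D (0 : ι → L) = 0 := by
  funext i; simp [dv]

theorem dv_smul (D : Derivation k L L) (a : L) (v : ι → L) :
    dv D (a • v) = D a • v + a • dv D v := by
  funext i; simp [dv, Derivation.leibniz]; ring

theorem add_dv (D E : Derivation k L L) (v : ι → L) : dv (D + E) v = dv D v + dv E v := by
  funext i; simp [dv]

theorem smul_dv (a : L) (D : Derivation k L L) (v : ι → L) : dv (a • D) v = a • dv D v := by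
  funext i; simp [dv]

theorem lie_dv (D E : Derivation k L L) (v : ι → L) :
    dv ⁅D, E⁆ v = dv D (dv E v) - dv E (dv D v) := by
  funext i; simp [dv, Derivation.commutator_apply]

/-- stable under all derivations of a set -/
def Stab (Ds : Set (Derivation k L L)) (W : Submodule L (ι → L)) : Prop :=
  ∀ D ∈ Ds, ∀ v ∈ W, dv D v ∈ W

/-- `B` is horizontal for the derivations in the set -/
def Hor (Ds : Set (Derivation k L L)) (B : LinearMap.BilinForm L (ι → L)) : Prop :=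
  ∀ D ∈ Ds, ∀ v w, D (B v w) = B (dv D v) w + B v (dv D w)

/-- the smallest stable subspace containing the derivatives of `s` -/
def Sp (Ds : Set (Derivation k L L)) (s : ι → L) : Submodule L (ι → L) :=
  sInf {W | Stab Ds W ∧ ∀ D ∈ Ds, dv D s ∈ W}

theorem Sp_stab (Ds : Set (Derivation k L L)) (s : ι → L) : Stab Ds (Sp Ds s) := by
  intro D hD v hv
  rw [Sp, Submodule.mem_sInf] at hv ⊢
  intro W hW
  exact hW.1 D hD v (hv W hW)

theorem mem_Sp (Ds : Set (Derivation k L L)) (s : ι → L) {D : Derivation k L L} (hD : D ∈ Ds) :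
    dv D s ∈ Sp Ds s := by
  rw [Sp, Submodule.mem_sInf]
  intro W hW
  exact hW.2 D hD

theorem Sp_le {Ds : Set (Derivation k L L)} {s : ι → L} {W : Submodule L (ι → L)}
    (h1 : Stab Ds W) (h2 : ∀ D ∈ Ds, dv D s ∈ W) : Sp Ds s ≤ W :=
  sInf_le ⟨h1, h2⟩

/-- the orthogonal space of a stable space is stable -/
theorem orth_stab {Ds : Set (Derivation k L L)} {B : LinearMap.BilinForm L (ι → L)}
    (hB : Hor Ds B) {W : Submodule L (ι → L)} (hW : Stab Ds W) :
    ∀ D ∈ Ds, ∀ v : ι → L, (∀ w ∈ W, B v w = 0) → ∀ w ∈ W, B (dv D v) w = 0 := by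
  intro D hD v hv w hw
  have h1 := hB D hD v w
  rw [hv w hw, hv _ (hW D hD w hw), map_zero, add_zero] at h1
  exact h1.symm

/-- The decomposition hypothesis: every derivation of the space is a sum of one which kills `r` and one
which kills `s`. -/
def Dec (Ds : Submodule L (Derivation k L L)) (s r : ι → L) : Prop :=
  ∀ D ∈ Ds, ∃ D1 ∈ Ds, ∃ D2 ∈ Ds, D = D1 + D2 ∧ dv D1 r = 0 ∧ dv D2 s = 0

theorem Dec.symm {Ds : Submodule L (Derivation k L L)} {s r : ι → L} (h : Dec Ds s r) :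
    Dec Ds r s := by
  intro D hD
  obtain ⟨D1, h1, D2, h2, h3, h4, h5⟩ := h D hD
  exact ⟨D2, h2, D1, h1, by rw [h3, add_comm], h5, h4⟩

/-- the space of the first derivatives -/
def W1 (Ds : Submodule L (Derivation k L L)) (s : ι → L) : Submodule L (ι → L) where
  carrier := {v | ∃ D ∈ Ds, v = dv D s}
  add_mem' := by
    rintro _ _ ⟨D, hD, rfl⟩ ⟨E, hE, rfl⟩
    exact ⟨D + E, Ds.add_mem hD hE, (add_dv D E s).symm⟩
  zero_mem' := ⟨0, Ds.zero_mem, by funext i; simp [dv]⟩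
  smul_mem' := by
    rintro a _ ⟨D, hD, rfl⟩
    exact ⟨a • D, Ds.smul_mem a hD, (smul_dv a D s).symm⟩

/-- the derivations of `Ds` killing `r` -/
def Kill (Ds : Submodule L (Derivation k L L)) (r : ι → L) : Set (Derivation k L L) :=
  {D | D ∈ Ds ∧ dv D r = 0}

theorem W1_stab {Ds : Submodule L (Derivation k L L)} (hlie : ∀ D ∈ Ds, ∀ E ∈ Ds, ⁅D, E⁆ ∈ Ds)
    {s : ι → L} : Stab (Kill Ds s) (W1 Ds s) := by
  rintro D2 ⟨hD2, hk⟩ v ⟨D, hD, rfl⟩
  refine ⟨⁅D2, D⁆, hlie D2 hD2 D hD, ?_⟩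
  rw [lie_dv, hk, dv_zero, sub_zero]

/-- first orthogonality -/
theorem orth1 {Ds : Submodule L (Derivation k L L)} (hlie : ∀ D ∈ Ds, ∀ E ∈ Ds, ⁅D, E⁆ ∈ Ds)
    {B : LinearMap.BilinForm L (ι → L)} (hB : Hor (Ds : Set (Derivation k L L)) B) (hsym : ∀ v w, B v w = B w v)
    (h2 : (2 : L) ≠ 0) {s r : ι → L} (hdec : Dec Ds s r) (hsr : B (s - r) (s - r) = 0) :
    (∀ D ∈ Kill Ds r, B (s - r) (dv D s) = 0) ∧ (∀ D ∈ Kill Ds s, B (s - r) (dv D r) = 0) ∧
    ∀ v ∈ W1 Ds s, ∀ w ∈ W1 Ds r, B v w = 0 := by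
  have key : ∀ D ∈ Ds, B (s - r) (dv D (s - r)) = 0 := by
    intro D hD
    have h1 := hB D hD (s - r) (s - r)
    rw [hsr, map_zero, hsym (dv D (s - r))] at h1
    have h3 : (2 : L) * B (s - r) (dv D (s - r)) = 0 := by rw [two_mul]; exact h1.symm
    exact (mul_eq_zero.1 h3).resolve_left h2
  have hA : ∀ D ∈ Kill Ds r, B (s - r) (dv D s) = 0 := by
    rintro D ⟨hD, hk⟩
    have := key D hD
    rwa [dv_sub, hk, sub_zero] at this
  have hC : ∀ D ∈ Kill Ds s, B (s - r) (dv D r) = 0 := by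
    rintro D ⟨hD, hk⟩
    have := key D hD
    rwa [dv_sub, hk, zero_sub, map_neg, neg_eq_zero] at this
  refine ⟨hA, hC, ?_⟩
  rintro _ ⟨D, hD, rfl⟩ _ ⟨E, hE, rfl⟩
  obtain ⟨D1, hD1, D2, hD2, rfl, hk1, hk2⟩ := hdec D hD
  obtain ⟨E1, hE1, E2, hE2, rfl, hl1, hl2⟩ := hdec E hE
  rw [add_dv, hk2, add_zero, add_dv, hl1, zero_add]
  -- differentiate `B (s - r) (dv D1 s) = 0` by `E2`
  have h1 := hB E2 hE2 (s - r) (dv D1 s)
  have hW : dv E2 (dv D1 s) ∈ W1 Ds s := W1_stab hlie E2 ⟨hE2, hl2⟩ _ ⟨D1, hD1, rfl⟩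
  obtain ⟨F, hF, hFe⟩ := hW
  obtain ⟨F1, hF1, F2, hF2, rfl, hm1, hm2⟩ := hdec F hF
  rw [add_dv, hm2, add_zero] at hFe
  rw [hA D1 ⟨hD1, hk1⟩, map_zero, hFe, hA F1 ⟨hF1, hm1⟩, add_zero, dv_sub, hl2, zero_sub, map_neg,
    LinearMap.neg_apply, eq_comm, neg_eq_zero] at h1
  rw [hsym]
  exact h1

/-- the smallest stable space is generated by the derivations which kill `r` -/
theorem Sp_eq {Ds : Submodule L (Derivation k L L)} (hlie : ∀ D ∈ Ds, ∀ E ∈ Ds, ⁅D, E⁆ ∈ Ds)
    {s r : ι → L} (hdec : Dec Ds s r) {X : Submodule L (ι → L)} (hX : Stab (Kill Ds r) X)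
    (hW : W1 Ds s ≤ X) : Sp (Ds : Set (Derivation k L L)) s ≤ X := by
  -- the largest subspace of `X` stable under all of `Ds`: the smallest `Kill r`-stable space above `W1`
  let C : Set (Submodule L (ι → L)) := {Y | Stab (Kill Ds r) Y ∧ W1 Ds s ≤ Y}
  let M : Submodule L (ι → L) := sInf C
  have hM1 : Stab (Kill Ds r) M := by
    intro D hD v hv
    rw [Submodule.mem_sInf] at hv ⊢
    intro Y hY
    exact hY.1 D hD v (hv Y hY)
  have hM2 : W1 Ds s ≤ M := le_sInf fun Y hY => hY.2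
  have hMX : M ≤ X := sInf_le ⟨hX, hW⟩
  -- the subspace of `M` of vectors whose `Kill s`-derivatives stay in `M`
  let N : Submodule L (ι → L) :=
    { carrier := {v | v ∈ M ∧ ∀ D ∈ Kill Ds s, dv D v ∈ M}
      add_mem' := by
        rintro a b ⟨ha, ha'⟩ ⟨hb, hb'⟩
        refine ⟨M.add_mem ha hb, fun D hD => ?_⟩
        rw [dv_add]
        exact M.add_mem (ha' D hD) (hb' D hD)
      zero_mem' := ⟨M.zero_mem, fun D _ => by rw [dv_zero]; exact M.zero_mem⟩
      smul_mem' := by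
        rintro a v ⟨hv, hv'⟩
        refine ⟨M.smul_mem a hv, fun D hD => ?_⟩
        rw [dv_smul]
        exact M.add_mem (M.smul_mem _ hv) (M.smul_mem _ (hv' D hD)) }
  have hN : M ≤ N := by
    refine sInf_le ⟨?_, ?_⟩
    · rintro D1 ⟨hD1, hk1⟩ v ⟨hv, hv'⟩
      refine ⟨hM1 D1 ⟨hD1, hk1⟩ v hv, ?_⟩
      rintro D2 ⟨hD2, hk2⟩
      have h1 : dv D2 (dv D1 v) = dv ⁅D2, D1⁆ v + dv D1 (dv D2 v) := by rw [lie_dv]; abel
      rw [h1]
      obtain ⟨E1, hE1, E2, hE2, hE, hl1, hl2⟩ := hdec _ (hlie D2 hD2 D1 hD1)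
      rw [hE, add_dv]
      exact M.add_mem (M.add_mem (hM1 E1 ⟨hE1, hl1⟩ v hv) (hv' E2 ⟨hE2, hl2⟩))
        (hM1 D1 ⟨hD1, hk1⟩ _ (hv' D2 ⟨hD2, hk2⟩))
    · intro v hv
      exact ⟨hM2 hv, fun D hD => hM2 (W1_stab hlie D hD v hv)⟩
  refine le_trans (Sp_le ?_ ?_) hMX
  · intro D hD v hv
    obtain ⟨D1, hD1, D2, hD2, rfl, hk1, hk2⟩ := hdec D hD
    rw [add_dv]
    exact M.add_mem (hM1 D1 ⟨hD1, hk1⟩ v hv) ((hN hv).2 D2 ⟨hD2, hk2⟩)
  · intro D hD
    exact hM2 ⟨D, hD, rfl⟩

/-- **Product structure**: the stable spaces generated by the derivatives of `s` and of `r` are orthogonal. -/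
theorem prod_orth {Ds : Submodule L (Derivation k L L)} (hlie : ∀ D ∈ Ds, ∀ E ∈ Ds, ⁅D, E⁆ ∈ Ds)
    {B : LinearMap.BilinForm L (ι → L)} (hB : Hor (Ds : Set (Derivation k L L)) B) (hsym : ∀ v w, B v w = B w v)
    (h2 : (2 : L) ≠ 0) {s r : ι → L} (hdec : Dec Ds s r) (hsr : B (s - r) (s - r) = 0) :
    ∀ v ∈ Sp (Ds : Set (Derivation k L L)) s, ∀ w ∈ Sp (Ds : Set (Derivation k L L)) r, B v w = 0 := by
  have h1 := (orth1 hlie hB hsym h2 hdec hsr).2.2
  -- `Sp s` is orthogonal to `W1 r`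
  have hA : Sp (Ds : Set (Derivation k L L)) s ≤
      { carrier := {v | ∀ w ∈ W1 Ds r, B v w = 0}
        add_mem' := by
          intro a b ha hb w hw
          rw [map_add, LinearMap.add_apply, ha w hw, hb w hw, add_zero]
        zero_mem' := by intro w _; simp
        smul_mem' := by
          intro a v hv w hw
          rw [map_smul, LinearMap.smul_apply, hv w hw, smul_zero] } := by
    refine Sp_eq hlie hdec ?_ ?_
    · rintro D ⟨hD, hk⟩ v hv w hw
      have hst : Stab (Kill Ds r) (W1 Ds r) := W1_stab hlie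
      have h3 := hB D hD v w
      rw [hv w hw, hv _ (hst D ⟨hD, hk⟩ w hw), map_zero, add_zero] at h3
      exact h3.symm
    · intro v hv w hw
      exact h1 v hv w hw
  intro v hv w hw
  -- `Sp r` is orthogonal to `Sp s`
  have hC : Sp (Ds : Set (Derivation k L L)) r ≤
      { carrier := {w | ∀ v ∈ Sp (Ds : Set (Derivation k L L)) s, B v w = 0}
        add_mem' := by
          intro a b ha hb v hv
          rw [map_add, ha v hv, hb v hv, add_zero]
        zero_mem' := by intro w _; simp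
        smul_mem' := by
          intro a w hw v hv
          rw [map_smul, hw v hv, smul_zero] } := by
    refine Sp_le ?_ ?_
    · intro D hD w hw v hv
      have h3 := hB D hD v w
      rw [hw v hv, hw _ (Sp_stab (Ds : Set (Derivation k L L)) s D hD v hv), map_zero, zero_add] at h3
      exact h3.symm
    · intro D hD v hv
      exact hA hv (dv D r) ⟨D, hD, rfl⟩
  exact hC hw v hv

end Vale.Agent.P054.T2.H715
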