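import Vale.Agent.P054.T2.H715.Ext

/-!
# [PROD], part 3: from the split derivations of the germ to orthogonal direction spaces

`R = k[[y_1..y_e]]`, `L` its fraction field, `s, r` vectors of series with `Q(s - r) = 0` such that every
`∂_l` is `D₁ + D₂` with `D₁ r = 0`, `D₂ s = 0`.  `Vs s` = span of the coefficient vectors (nonzero
exponents) of `s`.  Then `Vs s ⊥ Vs r`, and if `Vs s` is isotropic then `s(0) - r(0) ⊥ Vs s`.
-/

set_option autoImplicit false
set_option linter.unusedSimpArgs false
set_option linter.unusedSectionVars false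

open MvPowerSeries Finset

namespace Vale.Agent.P054.T2.H715

section form

variable {ν : Type*} [Fintype ν]

/-- the split form on `A^(ν ⊕ ν)` -/
def Bq {A : Type*} [CommRing A] (v w : ν ⊕ ν → A) : A :=
  ∑ i, (v (Sum.inl i) * w (Sum.inr i) + w (Sum.inl i) * v (Sum.inr i))

/-- the quadratic form -/
def Qs {A : Type*} [CommRing A] (v : ν ⊕ ν → A) : A := ∑ i, v (Sum.inl i) * v (Sum.inr i)

variable {A A' : Type*} [CommRing A] [CommRing A']

theorem Bq_comm (v w : ν ⊕ ν → A) : Bq v w = Bq w v := by
  unfold Bq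
  exact Finset.sum_congr rfl fun i _ => by ring

theorem Bq_self (v : ν ⊕ ν → A) : Bq v v = 2 * Qs v := by
  unfold Bq Qs
  rw [Finset.mul_sum]
  exact Finset.sum_congr rfl fun i _ => by ring

theorem Bq_add_left (v v' w : ν ⊕ ν → A) : Bq (v + v') w = Bq v w + Bq v' w := by
  simp only [Bq, ← Finset.sum_add_distrib, Pi.add_apply]
  exact Finset.sum_congr rfl fun i _ => by ring

theorem Bq_smul_left (c : A) (v w : ν ⊕ ν → A) : Bq (c • v) w = c * Bq v w := by
  simp only [Bq, Finset.mul_sum, Pi.smul_apply, smul_eq_mul]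
  exact Finset.sum_congr rfl fun i _ => by ring

theorem Bq_add_right (v w w' : ν ⊕ ν → A) : Bq v (w + w') = Bq v w + Bq v w' := by
  rw [Bq_comm, Bq_add_left, Bq_comm w, Bq_comm w']

theorem Bq_smul_right (c : A) (v w : ν ⊕ ν → A) : Bq v (c • w) = c * Bq v w := by
  rw [Bq_comm, Bq_smul_left, Bq_comm w]

theorem Bq_sub_left (v v' w : ν ⊕ ν → A) : Bq (v - v') w = Bq v w - Bq v' w := by
  simp only [Bq, ← Finset.sum_sub_distrib, Pi.sub_apply]
  exact Finset.sum_congr rfl fun i _ => by ring

@[simp] theorem Bq_zero_left (w : ν ⊕ ν → A) : Bq 0 w = 0 := by simp [Bq]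

@[simp] theorem Bq_zero_right (w : ν ⊕ ν → A) : Bq w 0 = 0 := by simp [Bq]

theorem map_Bq (f : A →+* A') (v w : ν ⊕ ν → A) :
    f (Bq v w) = Bq (fun x => f (v x)) (fun x => f (w x)) := by
  simp [Bq]

theorem Qs_add (v w : ν ⊕ ν → A) : Qs (v + w) = Qs v + Bq v w + Qs w := by
  simp only [Qs, Bq, ← Finset.sum_add_distrib, Pi.add_apply]
  exact Finset.sum_congr rfl fun i _ => by ring

theorem Qs_sub (v w : ν ⊕ ν → A) : Qs (v - w) = Qs v - Bq v w + Qs w := by
  simp only [Qs, Bq, ← Finset.sum_add_distrib, ← Finset.sum_sub_distrib, Pi.sub_apply]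
  exact Finset.sum_congr rfl fun i _ => by ring

theorem map_Qs (f : A →+* A') (v : ν ⊕ ν → A) : f (Qs v) = Qs (fun x => f (v x)) := by
  simp [Qs]

variable (ν A) in
/-- the polar form as a bilinear form -/
def BL : LinearMap.BilinForm A (ν ⊕ ν → A) :=
  LinearMap.mk₂ A Bq Bq_add_left (fun c s r => by rw [Bq_smul_left, smul_eq_mul]) Bq_add_right
    (fun c s r => by rw [Bq_smul_right, smul_eq_mul])

theorem BL_apply (v w : ν ⊕ ν → A) : BL ν A v w = Bq v w := rfl

theorem der_Bq {k L : Type*} [CommRing k] [Field L] [Algebra k L] (D : Derivation k L L)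
    (v w : ν ⊕ ν → L) : D (Bq v w) = Bq (dv D v) w + Bq v (dv D w) := by
  simp only [Bq, map_sum, map_add, Derivation.leibniz, smul_eq_mul, dv_apply,
    ← Finset.sum_add_distrib]
  exact Finset.sum_congr rfl fun i _ => by ring

theorem hor_BL {k L : Type*} [CommRing k] [Field L] [Algebra k L] (Ds : Set (Derivation k L L)) :
    Hor Ds (BL ν L) := fun D _ v w => der_Bq D v w

end form

section main

variable {k : Type*} [Field k] [CharZero k] {e : ℕ}
variable {L : Type*} [Field L] [Algebra (MvPowerSeries (Fin e) k) L]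
  [IsFractionRing (MvPowerSeries (Fin e) k) L] [Algebra k L]
  [IsScalarTower k (MvPowerSeries (Fin e) k) L]
variable {ν : Type*} [Fintype ν]

variable (k e L) in
/-- the partial derivatives on the fraction field -/
theorem exists_E : ∃ E : Fin e → Derivation k L L,
    (∀ m (f : MvPowerSeries (Fin e) k), E m (algebraMap _ L f)
      = algebraMap _ L (MvPowerSeries.pderiv k m f)) ∧ ∀ i j, ⁅E i, E j⁆ = 0 := by
  have hdom : IsDomain (MvPowerSeries (Fin e) k) := NoZeroDivisors.to_isDomain _
  choose E hE using fun m : Fin e =>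
    exists_ext_der (L := L) (MvPowerSeries.pderiv k m)
  refine ⟨E, hE, fun i j => ?_⟩
  refine der_eq_zero (R := MvPowerSeries (Fin e) k) _ fun f => ?_
  rw [Derivation.commutator_apply, hE, hE, hE, hE, ← map_sub]
  have h1 : MvPowerSeries.pderiv k i (MvPowerSeries.pderiv k j f)
      = MvPowerSeries.pderiv k j (MvPowerSeries.pderiv k i f) := by
    by_cases hij : i = j
    · rw [hij]
    · ext n
      rw [coeff_pderiv, coeff_pderiv, coeff_pderiv, coeff_pderiv]
      have e1 : (n + Finsupp.single i 1 : Fin e →₀ ℕ) j = n j := by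
        rw [Finsupp.add_apply, Finsupp.single_eq_of_ne (Ne.symm hij), add_zero]
      have e2 : (n + Finsupp.single j 1 : Fin e →₀ ℕ) i = n i := by
        rw [Finsupp.add_apply, Finsupp.single_eq_of_ne hij, add_zero]
      have e3 : n + Finsupp.single i 1 + Finsupp.single j 1
          = n + Finsupp.single j 1 + Finsupp.single i 1 := by abel
      rw [e1, e2, e3]
      ring
  rw [h1, sub_self, map_zero]

/-- the coefficient vector of the exponent `d` -/
noncomputable def cs {X : Type*} (d : Fin e →₀ ℕ) (s : X → MvPowerSeries (Fin e) k) : X → k :=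
  fun x => coeff d (s x)

/-- the span of the nonconstant coefficient vectors -/
noncomputable def Vs {X : Type*} (s : X → MvPowerSeries (Fin e) k) : Submodule k (X → k) :=
  Submodule.span k {v | ∃ d, d ≠ 0 ∧ v = cs d s}

/-- a vector of series over `L` -/
noncomputable def toL (L : Type*) [Field L] [Algebra (MvPowerSeries (Fin e) k) L] {X : Type*}
    (s : X → MvPowerSeries (Fin e) k) : X → L := fun x => algebraMap _ L (s x)

theorem dv_toL {X : Type*} {E : Fin e → Derivation k L L}
    (hE : ∀ m (f : MvPowerSeries (Fin e) k), E m (algebraMap _ L f)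
      = algebraMap _ L (MvPowerSeries.pderiv k m f)) (m : Fin e)
    (s : X → MvPowerSeries (Fin e) k) :
    dv (E m) (toL L s) = toL L (fun x => MvPowerSeries.pderiv k m (s x)) := by
  funext x
  exact hE m (s x)

theorem word_mem {X : Type*} {E : Fin e → Derivation k L L}
    (hE : ∀ m (f : MvPowerSeries (Fin e) k), E m (algebraMap _ L f)
      = algebraMap _ L (MvPowerSeries.pderiv k m f))
    (s : X → MvPowerSeries (Fin e) k) (w : List (Fin e)) : ∀ m : Fin e,
    toL L (fun x => wd (m :: w) (s x)) ∈ Sp (Submodule.span L (Set.range E) :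
      Set (Derivation k L L)) (toL L s) := by
  induction w with
  | nil =>
    intro m
    have h1 : toL L (fun x => wd [m] (s x)) = dv (E m) (toL L s) := by
      rw [dv_toL hE]; rfl
    rw [h1]
    have h2 : E m ∈ Submodule.span L (Set.range E) := Submodule.subset_span ⟨m, rfl⟩
    exact mem_Sp _ _ (SetLike.mem_coe.2 h2)
  | cons m' w ih =>
    intro m
    have h1 : toL L (fun x => wd (m :: m' :: w) (s x))
        = dv (E m) (toL L (fun x => wd (m' :: w) (s x))) := by
      rw [dv_toL hE]; rfl
    rw [h1]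
    have h2 : E m ∈ Submodule.span L (Set.range E) := Submodule.subset_span ⟨m, rfl⟩
    exact Sp_stab _ _ (E m) (SetLike.mem_coe.2 h2) _ (ih m')

theorem der_sum_apply {τ : Type*} (S : Finset τ) (F : τ → Derivation k L L) (x : L) :
    (∑ m ∈ S, F m) x = ∑ m ∈ S, F m x := by
  classical
  induction S using Finset.induction_on with
  | empty => simp
  | insert a S ha ih => rw [Finset.sum_insert ha, Finset.sum_insert ha, Derivation.add_apply, ih]

/-- the conclusion of 930's `exists_split` gives the decomposition hypothesis -/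
theorem dec_of_split {X : Type*} {E : Fin e → Derivation k L L}
    (hE : ∀ m (f : MvPowerSeries (Fin e) k), E m (algebraMap _ L f)
      = algebraMap _ L (MvPowerSeries.pderiv k m f))
    (s r : X → MvPowerSeries (Fin e) k)
    (hsplit : ∀ l : Fin e, ∃ α : Fin e → L,
      (∀ x, ∑ m, α m * algebraMap _ L (MvPowerSeries.pderiv k m (r x)) = 0) ∧
      (∀ x, ∑ m, α m * algebraMap _ L (MvPowerSeries.pderiv k m (s x))
        = algebraMap _ L (MvPowerSeries.pderiv k l (s x)))) :
    Dec (Submodule.span L (Set.range E)) (toL L s) (toL L r) := by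
  have hsum : ∀ (α : Fin e → L) (t : X → MvPowerSeries (Fin e) k) (x : X),
      dv (∑ m, α m • E m) (toL L t) x
        = ∑ m, α m * algebraMap _ L (MvPowerSeries.pderiv k m (t x)) := by
    intro α t x
    rw [dv_apply]
    rw [der_sum_apply]
    refine Finset.sum_congr rfl fun m _ => ?_
    rw [Derivation.smul_apply, smul_eq_mul]
    congr 1
    exact hE m (t x)
  intro D hD
  induction hD using Submodule.span_induction with
  | mem y hy =>
    obtain ⟨l, rfl⟩ := hy
    obtain ⟨α, h1, h2⟩ := hsplit l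
    have hm : ∑ m, α m • E m ∈ Submodule.span L (Set.range E) :=
      Submodule.sum_mem _ fun m _ => Submodule.smul_mem _ _ (Submodule.subset_span ⟨m, rfl⟩)
    refine ⟨∑ m, α m • E m, hm, E l - ∑ m, α m • E m,
      Submodule.sub_mem _ (Submodule.subset_span ⟨l, rfl⟩) hm, by abel, ?_, ?_⟩
    · funext x
      rw [hsum, h1 x]; rfl
    · funext x
      have h3 : dv (E l - ∑ m, α m • E m) (toL L s) x
          = dv (E l) (toL L s) x - dv (∑ m, α m • E m) (toL L s) x := by
        simp [dv]
      rw [h3, hsum, h2 x, dv_apply]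
      have h4 := hE l (s x)
      unfold toL
      rw [h4, sub_self]; rfl
  | zero =>
    refine ⟨0, Submodule.zero_mem _, 0, Submodule.zero_mem _, (add_zero 0).symm, ?_, ?_⟩ <;>
    · funext x; simp [dv]
  | add D D' _ _ h h' =>
    obtain ⟨D1, a1, D2, a2, rfl, a3, a4⟩ := h
    obtain ⟨E1, b1, E2, b2, rfl, b3, b4⟩ := h'
    refine ⟨D1 + E1, Submodule.add_mem _ a1 b1, D2 + E2, Submodule.add_mem _ a2 b2, by abel, ?_, ?_⟩
    · rw [add_dv, a3, b3, add_zero]
    · rw [add_dv, a4, b4, add_zero]
  | smul c D _ h =>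
    obtain ⟨D1, a1, D2, a2, rfl, a3, a4⟩ := h
    refine ⟨c • D1, Submodule.smul_mem _ _ a1, c • D2, Submodule.smul_mem _ _ a2,
      smul_add c D1 D2, ?_, ?_⟩
    · rw [smul_dv, a3, smul_zero]
    · rw [smul_dv, a4, smul_zero]

/-- horizontality of the closed point evaluation -/
theorem eval_Bq_words (s r : ν ⊕ ν → MvPowerSeries (Fin e) k) (w w' : List (Fin e))
    (h : Bq (toL L (fun x => wd w (s x))) (toL L (fun x => wd w' (r x))) = 0) :
    Bq (cs (cnt w) s) (cs (cnt w') r) = 0 := by
  have h1 : algebraMap (MvPowerSeries (Fin e) k) L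
      (Bq (fun x => wd w (s x)) (fun x => wd w' (r x))) = 0 := by
    rw [map_Bq]; exact h
  have h2 : Bq (fun x => wd w (s x)) (fun x => wd w' (r x)) = 0 :=
    (IsFractionRing.injective (MvPowerSeries (Fin e) k) L) (by rw [h1, map_zero])
  have h3 := congrArg (constantCoeff (σ := Fin e) (R := k)) h2
  rw [map_Bq, map_zero] at h3
  obtain ⟨c, hc, hcw⟩ := coeff_wd (k := k) w 0
  obtain ⟨c', hc', hcw'⟩ := coeff_wd (k := k) w' 0
  have e1 : (fun x => constantCoeff (wd w (s x))) = (c : k) • cs (cnt w) s := by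
    funext x
    rw [← coeff_zero_eq_constantCoeff_apply, hcw, zero_add]; rfl
  have e2 : (fun x => constantCoeff (wd w' (r x))) = (c' : k) • cs (cnt w') r := by
    funext x
    rw [← coeff_zero_eq_constantCoeff_apply, hcw', zero_add]; rfl
  rw [e1, e2, Bq_smul_left, Bq_smul_right] at h3
  have h4 : (c : k) ≠ 0 := Nat.cast_ne_zero.2 hc
  have h5 : (c' : k) ≠ 0 := Nat.cast_ne_zero.2 hc'
  exact (mul_eq_zero.1 ((mul_eq_zero.1 h3).resolve_left h4)).resolve_left h5

/-- vectors over `L` coming from a `k`-subspace -/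
noncomputable def LV (L : Type*) [Field L] [Algebra k L] {X : Type*} (V : Submodule k (X → k)) :
    Submodule L (X → L) :=
  Submodule.span L {v | ∃ a ∈ V, v = fun x => algebraMap k L (a x)}

theorem LV_stab {X : Type*} (V : Submodule k (X → k)) (Ds : Set (Derivation k L L)) :
    Stab Ds (LV L V) := by
  intro D _ v hv
  induction hv using Submodule.span_induction with
  | mem y hy =>
    obtain ⟨a, _, rfl⟩ := hy
    have h1 : dv D (fun x => algebraMap k L (a x)) = 0 := by
      funext x; simp [dv]
    rw [h1]; exact Submodule.zero_mem _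
  | zero => rw [dv_zero]; exact Submodule.zero_mem _
  | add x y _ _ hx hy => rw [dv_add]; exact Submodule.add_mem _ hx hy
  | smul c x hx hx' =>
    rw [dv_smul]
    exact Submodule.add_mem _ (Submodule.smul_mem _ _ hx) (Submodule.smul_mem _ _ hx')

/-- a vector of series all of whose coefficient vectors lie in `V` lies in `LV` -/
theorem toL_mem_LV {X : Type*} [Finite X] (V : Submodule k (X → k))
    (t : X → MvPowerSeries (Fin e) k) (ht : ∀ d, cs d t ∈ V) : toL L t ∈ LV L V := by
  classical
  let b := Module.finBasis k V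
  let c : Fin (Module.finrank k V) → MvPowerSeries (Fin e) k :=
    fun j d => b.repr ⟨cs d t, ht d⟩ j
  have h1 : toL L t = ∑ j, algebraMap _ L (c j) •
      (fun x => algebraMap k L ((b j : X → k) x) : X → L) := by
    funext x
    rw [Finset.sum_apply]
    have e1 : t x = ∑ j, c j * MvPowerSeries.C ((b j : X → k) x) := by
      ext d
      rw [map_sum]
      have e2 : ∀ j, coeff d (c j * MvPowerSeries.C ((b j : X → k) x))
          = b.repr ⟨cs d t, ht d⟩ j * (b j : X → k) x := by
        intro j
        rw [coeff_mul_C]; rfl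
      rw [Finset.sum_congr rfl fun j _ => e2 j]
      have e3 := congrArg (fun v : V => (v : X → k) x) (b.sum_repr ⟨cs d t, ht d⟩)
      simp only [Submodule.coe_sum, Submodule.coe_smul, Finset.sum_apply, Pi.smul_apply,
        smul_eq_mul] at e3
      exact e3.symm
    have e4 : toL L t x = algebraMap _ L (t x) := rfl
    rw [e4, e1, map_sum]
    refine Finset.sum_congr rfl fun j _ => ?_
    rw [map_mul, Pi.smul_apply, smul_eq_mul]
    congr 1
    rw [IsScalarTower.algebraMap_apply k (MvPowerSeries (Fin e) k) L]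
    rfl
  rw [h1]
  exact Submodule.sum_mem _ fun j _ => Submodule.smul_mem _ _
    (Submodule.subset_span ⟨(b j : X → k), (b j).2, rfl⟩)

theorem cs_pderiv_mem {X : Type*} (s : X → MvPowerSeries (Fin e) k) (m : Fin e)
    (d : Fin e →₀ ℕ) : cs d (fun x => MvPowerSeries.pderiv k m (s x)) ∈ Vs s := by
  have h1 : cs d (fun x => MvPowerSeries.pderiv k m (s x))
      = ((d m : k) + 1) • cs (d + Finsupp.single m 1) s := by
    funext x
    simp only [cs, Pi.smul_apply, smul_eq_mul]
    rw [coeff_pderiv]; ring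
  rw [h1]
  refine Submodule.smul_mem _ _ (Submodule.subset_span ⟨_, ?_, rfl⟩)
  intro h2
  have := DFunLike.congr_fun h2 m
  simp at this

/-- the space generated by the derivatives of `s` lies in `L ⊗ Vs s` -/
theorem Sp_le_LV {X : Type*} [Finite X] {E : Fin e → Derivation k L L}
    (hE : ∀ m (f : MvPowerSeries (Fin e) k), E m (algebraMap _ L f)
      = algebraMap _ L (MvPowerSeries.pderiv k m f)) (s : X → MvPowerSeries (Fin e) k) :
    Sp (Submodule.span L (Set.range E) : Set (Derivation k L L)) (toL L s) ≤ LV L (Vs s) := by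
  refine Sp_le (LV_stab _ _) ?_
  intro D hD
  have hD' : D ∈ Submodule.span L (Set.range E) := hD
  induction hD' using Submodule.span_induction with
  | mem y hy =>
    obtain ⟨m, rfl⟩ := hy
    rw [dv_toL hE]
    exact toL_mem_LV _ _ fun d => cs_pderiv_mem s m d
  | zero =>
    have h1 : dv (0 : Derivation k L L) (toL L s) = 0 := by funext x; simp [dv]
    rw [h1]; exact Submodule.zero_mem _
  | add x y hx hy hx' hy' => rw [add_dv]; exact Submodule.add_mem _ (hx' hx) (hy' hy)
  | smul c x hx hx' => rw [smul_dv]; exact Submodule.smul_mem _ _ (hx' hx)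

theorem Bq_LV {V V' : Submodule k (ν ⊕ ν → k)} (h : ∀ a ∈ V, ∀ b ∈ V', Bq a b = 0) :
    ∀ v ∈ LV L V, ∀ w ∈ LV L V', Bq v w = 0 := by
  intro v hv w hw
  induction hv using Submodule.span_induction with
  | mem y hy =>
    obtain ⟨a, ha, rfl⟩ := hy
    induction hw using Submodule.span_induction with
    | mem z hz =>
      obtain ⟨b, hb, rfl⟩ := hz
      rw [← map_Bq, h a ha b hb, map_zero]
    | zero => simp
    | add x y _ _ hx hy => rw [Bq_add_right, hx, hy, add_zero]
    | smul c x _ hx => rw [Bq_smul_right, hx, mul_zero]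
  | zero => simp
  | add x y _ _ hx hy => rw [Bq_add_left, hx, hy, add_zero]
  | smul c x _ hx => rw [Bq_smul_left, hx, mul_zero]

section concl

variable (s r : ν ⊕ ν → MvPowerSeries (Fin e) k)

/-- **[PROD] hperp** -/
theorem prod_perp (hsplit : ∀ l : Fin e, ∃ α : Fin e → L,
      (∀ x, ∑ m, α m * algebraMap _ L (MvPowerSeries.pderiv k m (r x)) = 0) ∧
      (∀ x, ∑ m, α m * algebraMap _ L (MvPowerSeries.pderiv k m (s x))
        = algebraMap _ L (MvPowerSeries.pderiv k l (s x))))
    (hQ : Qs (s - r) = 0) : ∀ a ∈ Vs s, ∀ b ∈ Vs r, Bq a b = 0 := by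
  obtain ⟨E, hE, hcomm⟩ := exists_E k e L
  have hdec := dec_of_split hE s r hsplit
  have hlie := lie_mem_span E hcomm
  have : CharZero L := charZero_of_injective_algebraMap (R := k) (A := L) (algebraMap k L).injective
  have hsr : BL ν L (toL L s - toL L r) (toL L s - toL L r) = 0 := by
    rw [BL_apply, Bq_self]
    have h1 : (toL L s - toL L r : ν ⊕ ν → L) = fun x => algebraMap _ L ((s - r) x) := by
      funext x; simp [toL]
    rw [h1, ← map_Qs, hQ, map_zero, mul_zero]
  have hort := prod_orth hlie (hor_BL (ν := ν) _) (fun v w => by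
    rw [BL_apply, BL_apply, Bq_comm]) two_ne_zero hdec hsr
  have key : ∀ d d' : Fin e →₀ ℕ, d ≠ 0 → d' ≠ 0 → Bq (cs d s) (cs d' r) = 0 := by
    intro d d' hd hd'
    obtain ⟨m, w, rfl⟩ := exists_word d hd
    obtain ⟨m', w', rfl⟩ := exists_word d' hd'
    exact eval_Bq_words (L := L) s r _ _
      (hort _ (word_mem hE s w m) _ (word_mem hE r w' m'))
  intro a ha b hb
  induction ha using Submodule.span_induction with
  | mem y hy =>
    obtain ⟨d, hd, rfl⟩ := hy
    induction hb using Submodule.span_induction with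
    | mem z hz =>
      obtain ⟨d', hd', rfl⟩ := hz
      exact key d d' hd hd'
    | zero => simp
    | add x y _ _ hx hy => rw [Bq_add_right, hx, hy, add_zero]
    | smul c x _ hx => rw [Bq_smul_right, hx, mul_zero]
  | zero => simp
  | add x y _ _ hx hy => rw [Bq_add_left, hx, hy, add_zero]
  | smul c x _ hx => rw [Bq_smul_left, hx, mul_zero]

/-- **[PROD] hiso** for `s` -/
theorem prod_iso (hsplit : ∀ l : Fin e, ∃ α : Fin e → L,
      (∀ x, ∑ m, α m * algebraMap _ L (MvPowerSeries.pderiv k m (r x)) = 0) ∧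
      (∀ x, ∑ m, α m * algebraMap _ L (MvPowerSeries.pderiv k m (s x))
        = algebraMap _ L (MvPowerSeries.pderiv k l (s x))))
    (hQ : Qs (s - r) = 0) (hI : ∀ a ∈ Vs s, ∀ b ∈ Vs s, Bq a b = 0) :
    ∀ a ∈ Vs s, Bq (cs 0 s - cs 0 r) a = 0 := by
  obtain ⟨E, hE, hcomm⟩ := exists_E k e L
  have hdec := dec_of_split hE s r hsplit
  have hlie := lie_mem_span E hcomm
  have : CharZero L := charZero_of_injective_algebraMap (R := k) (A := L) (algebraMap k L).injective
  have hsr : BL ν L (toL L s - toL L r) (toL L s - toL L r) = 0 := by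
    rw [BL_apply, Bq_self]
    have h1 : (toL L s - toL L r : ν ⊕ ν → L) = fun x => algebraMap _ L ((s - r) x) := by
      funext x; simp [toL]
    rw [h1, ← map_Qs, hQ, map_zero, mul_zero]
  have hsym : ∀ v w, BL ν L v w = BL ν L w v := fun v w => by
    rw [BL_apply, BL_apply, Bq_comm]
  have hort := prod_orth hlie (hor_BL (ν := ν) _) hsym two_ne_zero hdec hsr
  have ho1 := orth1 hlie (hor_BL (ν := ν) _) hsym two_ne_zero hdec hsr
  -- the space of `v` in `Sp s` orthogonal to `s - r`
  let X : Submodule L (ν ⊕ ν → L) :=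
    { carrier := {v | v ∈ Sp (Submodule.span L (Set.range E) : Set (Derivation k L L)) (toL L s) ∧
        Bq (toL L s - toL L r) v = 0}
      add_mem' := by
        rintro a b ⟨h1, h2⟩ ⟨h3, h4⟩
        exact ⟨Submodule.add_mem _ h1 h3, by rw [Bq_add_right, h2, h4, add_zero]⟩
      zero_mem' := ⟨Submodule.zero_mem _, by simp⟩
      smul_mem' := by
        rintro c a ⟨h1, h2⟩
        exact ⟨Submodule.smul_mem _ _ h1, by rw [Bq_smul_right, h2, mul_zero]⟩ }
  have hX : Sp (Submodule.span L (Set.range E) : Set (Derivation k L L)) (toL L s) ≤ X := by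
    refine Sp_le ?_ ?_
    · rintro D hD v ⟨h1, h2⟩
      refine ⟨Sp_stab _ _ D hD v h1, ?_⟩
      have h3 := der_Bq D (toL L s - toL L r) v
      rw [h2, map_zero, dv_sub, Bq_sub_left] at h3
      have h4 : Bq (dv D (toL L s)) v = 0 :=
        Bq_LV hI _ (Sp_le_LV hE s (mem_Sp _ _ hD)) _ (Sp_le_LV hE s h1)
      have h5 : Bq (dv D (toL L r)) v = 0 := by
        rw [Bq_comm]
        exact hort v h1 _ (mem_Sp _ _ hD)
      rw [h4, h5, sub_zero, zero_add] at h3
      exact h3.symm
    · intro D hD
      refine ⟨mem_Sp _ _ hD, ?_⟩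
      obtain ⟨D1, a1, D2, a2, rfl, a3, a4⟩ := hdec D hD
      rw [add_dv, a4, add_zero]
      exact ho1.1 D1 ⟨a1, a3⟩
  have key : ∀ d : Fin e →₀ ℕ, d ≠ 0 → Bq (cs 0 s - cs 0 r) (cs d s) = 0 := by
    intro d hd
    obtain ⟨m, w, rfl⟩ := exists_word d hd
    have h1 := (hX (word_mem hE s w m)).2
    have h2 := eval_Bq_words (L := L) (s - r) s [] (m :: w) (by
      have h3 : (toL L (fun x => wd [] ((s - r) x)) : ν ⊕ ν → L) = toL L s - toL L r := by
        funext x; simp [toL]
      rw [h3]; exact h1)
    have h4 : cs (cnt ([] : List (Fin e))) (s - r) = cs 0 s - cs 0 r := by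
      funext x; simp [cs]
    rwa [h4] at h2
  intro a ha
  induction ha using Submodule.span_induction with
  | mem y hy =>
    obtain ⟨d, hd, rfl⟩ := hy
    exact key d hd
  | zero => simp
  | add x y _ _ hx hy => rw [Bq_add_right, hx, hy, add_zero]
  | smul c x _ hx => rw [Bq_smul_right, hx, mul_zero]

end concl

end main

end Vale.Agent.P054.T2.H715
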